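import Crest.Agent.R316.FinalCfg
import Crest.Agent.R316.CH.PolyFin

/-!
# R316 / Final : the `∃∀` theory of the reals is in the counting hierarchy
-/

set_option autoImplicit false

namespace Crest.Agent.R316

open MvPolynomial Crest.Agent.Lib.PT

/-- `ev2` commutes with ring homomorphisms -/
theorem map_ev2 {n : ℕ} {A B : Type*} [CommRing A] [CommRing B] (θ : A →+* B)
    (x y : Fin n → A) (f : Zxy n) :
    θ (ev2 x y f) = ev2 (fun i => θ (x i)) (fun i => θ (y i)) f := by
  unfold ev2
  rw [eval_map, eval_map, eval₂_comp_left, xhom_comp]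
  rfl

/-- the polynomials `fW w` are CH-evaluable (in fact poly-time evaluable) -/
theorem chev_fW : CH.CHEv (fun w : Bits => (cfgW w.val).q) (fun w => (cfgW w.val).n)
    (fun w => (cfgW w.val).f) := by
  refine CH.CHMod.intro 0 (F := fun y : ((Bits × List ℕ) × List ℕ) × ℕ =>
    Parse.evalMod (Parse.cons y.1.1.1.val) y.2 y.1.1.2 y.1.2) (CH.CHF.of_ptf ?_) ?_
  · refine Parse.ptf_evalMod' (Parse.ptf_cons ?_) (by fun_prop) (by fun_prop) (by fun_prop)
    fun_prop
  · intro b q hq _
    simp only
    rw [Parse.evalMod_cons_spec hq.pos]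
    have h := map_ev2 (Int.castRingHom (ZMod q)) (CH.pt (Parse.nVar b.1.1.val) b.1.2)
      (CH.pt (Parse.nVar b.1.1.val) b.2) (Parse.fW b.1.1.val)
    rw [eq_intCast] at h
    refine Eq.trans ?_ h.symm
    congr 1
    · funext i; simp [CH.pt]
    · funext i; simp [CH.pt]

open CH in
/-- **main theorem** -/
theorem eatr_mem_level : ∃ j : ℕ, Crest.RealEA.EATR ∈ Crest.CountHier.level j := by
  obtain ⟨a, u, v, k, e, t, b, l, k', e', t', b', l', ha, hmain⟩ := exists_params
  have hq : PTU (fun w : Bits => (cfgW w.val).q) := Parse.ptu_nVar (f := fun w : Bits => w.val)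
    (by fun_prop)
  have h := chpred_finalW (c := fun w : Bits => cfgW w.val) hq hq chev_fW
    a u v k e t b l k' e' t' b' l' ha
  obtain ⟨L, hL, h⟩ := h
  refine InCH.level (L := Crest.RealEA.EATR) ?_
  convert hL
  ext w
  have h1 := h ⟨w⟩
  rw [Parse.mem_eatr_iff]
  refine (hmain (cfgW w)).trans ?_
  exact h1

end Crest.Agent.R316
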