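import Crest.Agent.R316.Parse.Final
import Crest.Agent.R316.Num.ParamsDefs

/-!
# R316 / FinalCfg : the configuration attached to an input string
-/

set_option autoImplicit false

namespace Crest.Agent.R316

open MvPolynomial

/-- size bound for the polynomial of the sentence `w` -/
theorem bd_fW' (w : List Bool) :
    Bd (Parse.fW w) (2 ^ 2 ^ Parse.nVar w) (2 ^ Parse.nVar w) := by
  have h0 := Parse.bd_fW w
  have hn : Parse.nVar w = 20 * (w.length + 1) := rfl
  refine h0.mono ?_ (by positivity) ?_
  · have h1 : (Parse.nVar w : ℝ) ≤ 2 ^ Parse.nVar w := by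
      exact_mod_cast (Nat.lt_two_pow_self (n := Parse.nVar w)).le
    have h2 : ((4 : ℝ) * 2 ^ (w.length + 1)) ^ 2 = 2 ^ (2 * w.length + 6) := by
      rw [show (4 : ℝ) = 2 ^ 2 by norm_num, ← pow_add, ← pow_mul]
      congr 1; ring
    have h3 : Parse.nVar w + (2 * w.length + 6) ≤ 2 ^ Parse.nVar w := by
      have h4 : 2 * Parse.nVar w ≤ 2 ^ Parse.nVar w := by
        have : ∀ k, 2 ≤ k → 2 * k ≤ 2 ^ k := by
          intro k hk
          induction k, hk using Nat.le_induction with
          | base => norm_num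
          | succ k hk ih => rw [pow_succ]; omega
        exact this _ (by omega)
      omega
    calc (Parse.nVar w : ℝ) * ((4 : ℝ) * 2 ^ (w.length + 1)) ^ 2
        ≤ 2 ^ Parse.nVar w * 2 ^ (2 * w.length + 6) := by
          rw [h2]; gcongr
      _ = 2 ^ (Parse.nVar w + (2 * w.length + 6)) := (pow_add _ _ _).symm
      _ ≤ 2 ^ 2 ^ Parse.nVar w := pow_le_pow_right₀ (by norm_num) h3
  · have : 2 ≤ Parse.nVar w := by omega
    calc 4 = 2 ^ 2 := by norm_num
      _ ≤ 2 ^ Parse.nVar w := Nat.pow_le_pow_right (by norm_num) this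

/-- the configuration of the sentence `w` -/
noncomputable def cfgW (w : List Bool) : Cfg where
  q := Parse.nVar w
  n := Parse.nVar w
  f := Parse.fW w
  hnq := le_rfl
  hf4 := Parse.totalDegree_fW w
  hf0 := Parse.ev2_fW_nonneg w
  hbd := bd_fW' w

end Crest.Agent.R316
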